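import Vale.Agent.P157.Stmt

/-!
# P157: internal definitions (cascade calculus)

Levels are numbered from the top: `X 0 = Ψ`, `X (d+1) = T (ζ d) (ν d) (X d)`.
-/

namespace Vale.Agent.P157

open MeasureTheory ProbabilityTheory

/-! ## Soft maximum and tilted expectation -/

section lse
variable {Ω : Type} [MeasurableSpace Ω]

/-- Soft maximum `ζ⁻¹ log ∫ exp (ζ F)`, the mean for `ζ = 0`. -/
noncomputable def lse (ν : Measure Ω) (ζ : ℝ) (F : Ω → ℝ) : ℝ :=
  if ζ = 0 then ∫ ω, F ω ∂ν else ζ⁻¹ * Real.log (∫ ω, Real.exp (ζ * F ω) ∂ν)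

/-- Expectation of `g` under `ν` tilted by `exp (ζ F)`. -/
noncomputable def gexp (ν : Measure Ω) (ζ : ℝ) (F g : Ω → ℝ) : ℝ :=
  ∫ ω, g ω ∂(ν.tilted fun ω => ζ * F ω)

/-- Measurable with all exponential moments. -/
def EInt (ν : Measure Ω) (F : Ω → ℝ) : Prop :=
  Measurable F ∧ ∀ c : ℝ, Integrable (fun ω => Real.exp (c * F ω)) ν

/-- Bounded measurable. -/
def BM (φ : Ω → ℝ) : Prop := Measurable φ ∧ ∃ C, ∀ w, |φ w| ≤ C

end lse

/-! ## Cascades on a normed space -/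

section casc
variable {W : Type} [NormedAddCommGroup W] [MeasurableSpace W]

/-- Probability measures with all exponential moments of the norm. -/
structure Noise (ν : Measure W) : Prop where
  prob : IsProbabilityMeasure ν
  ex : ∀ c : ℝ, Integrable (fun z => Real.exp (c * ‖z‖)) ν

/-- Measurable with linear growth. -/
def LG (Ψ : W → ℝ) : Prop := Measurable Ψ ∧ ∃ C, ∀ w, |Ψ w| ≤ C * (1 + ‖w‖)

/-- One cascade step. -/
noncomputable def T (ζ : ℝ) (ν : Measure W) (Ψ : W → ℝ) (w : W) : ℝ :=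
  lse ν ζ fun z => Ψ (w + z)

/-- The tilted kernel of one cascade step. -/
noncomputable def P (ζ : ℝ) (ν : Measure W) (Ψ φ : W → ℝ) (w : W) : ℝ :=
  gexp ν ζ (fun z => Ψ (w + z)) fun z => φ (w + z)

/-- The cascade. -/
noncomputable def X (ζ : ℕ → ℝ) (ν : ℕ → Measure W) (Ψ : W → ℝ) : ℕ → W → ℝ
  | 0 => Ψ
  | d + 1 => T (ζ d) (ν d) (X ζ ν Ψ d)

/-- Conditional expectation at depth `d` of an observable `φ` living at depth `k`. -/
noncomputable def Ex (ζ : ℕ → ℝ) (ν : ℕ → Measure W) (Ψ : W → ℝ) (k : ℕ) (φ : W → ℝ) :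
    ℕ → W → ℝ
  | 0 => φ
  | d + 1 => if d < k then φ else P (ζ d) (ν d) (X ζ ν Ψ d) (Ex ζ ν Ψ k φ d)

/-- Second derivative recursion along a direction with terminal data `m`, `a`. -/
noncomputable def aa (ζ : ℕ → ℝ) (ν : ℕ → Measure W) (Ψ m a : W → ℝ) : ℕ → W → ℝ
  | 0 => a
  | d + 1 => fun w =>
      P (ζ d) (ν d) (X ζ ν Ψ d) (fun u => aa ζ ν Ψ m a d u + ζ d * Ex ζ ν Ψ 0 m d u ^ 2) w
        - ζ d * Ex ζ ν Ψ 0 m (d + 1) w ^ 2

/-- `a + ζ m ^ 2` at depth `d`. -/
noncomputable def bb (ζ : ℕ → ℝ) (ν : ℕ → Measure W) (Ψ m a : W → ℝ) (d : ℕ) (w : W) : ℝ :=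
  aa ζ ν Ψ m a d w + ζ d * Ex ζ ν Ψ 0 m d w ^ 2

end casc

/-- Exponent sequences: antitone with values in `[0,1]`. -/
structure Zok (ζ : ℕ → ℝ) : Prop where
  anti : Antitone ζ
  nn : ∀ d, 0 ≤ ζ d
  le1 : ζ 0 ≤ 1

/-- A good cascade. -/
structure Cas {W : Type} [NormedAddCommGroup W] [MeasurableSpace W]
    (ζ : ℕ → ℝ) (ν : ℕ → Measure W) (Ψ : W → ℝ) : Prop where
  z : Zok ζ
  noise : ∀ d, Noise (ν d)
  lg : LG Ψ

/-- The exponent part of admissibility. -/
structure ZAdm (n : ℕ) (ζ : ℕ → ℝ) : Prop where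
  z0 : ζ 0 = 1
  zlt : ∀ d, d < n → ζ (d + 1) < ζ d
  zn : ∀ d, n ≤ d → ζ d = 0

/-- Cumulative paths. -/
structure CAdm (n : ℕ) (c : ℕ → ℝ) : Prop where
  anti : Antitone c
  zero : ∀ d, n < d → c d = 0

/-! ## Jets -/

section jets
variable {W : Type} [NormedAddCommGroup W] [NormedSpace ℝ W] [MeasurableSpace W]

/-- Second order expansion of `Ψ` along the direction `v`, with cubic remainder. -/
structure DJet (Ψ : W → ℝ) (v : W) (m a : W → ℝ) (K : ℝ) : Prop where
  K0 : 0 ≤ K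
  mm : Measurable m
  ma : Measurable a
  bm : ∀ w, |m w| ≤ K
  ba : ∀ w, |a w| ≤ K
  lip : ∀ w (t : ℝ), |Ψ (w + t • v) - Ψ w| ≤ K * |t|
  tay : ∀ w (t : ℝ), |Ψ (w + t • v) - Ψ w - t * m w - t ^ 2 / 2 * a w| ≤ K * |t| ^ 3

/-- The same for a family of functions, uniformly in the parameter. -/
structure FJet {Ω : Type} [MeasurableSpace Ω] (H : W → Ω → ℝ) (v : W) (m a : W → Ω → ℝ)
    (K : ℝ) : Prop where
  K0 : 0 ≤ K
  mm : Measurable (Function.uncurry m)
  ma : Measurable (Function.uncurry a)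
  bm : ∀ w x, |m w x| ≤ K
  ba : ∀ w x, |a w x| ≤ K
  lip : ∀ w x (t : ℝ), |H (w + t • v) x - H w x| ≤ K * |t|
  tay : ∀ w x (t : ℝ),
    |H (w + t • v) x - H w x - t * m w x - t ^ 2 / 2 * a w x| ≤ K * |t| ^ 3

/-- Growth of the jet constant in one step. -/
def jc (K : ℝ) : ℝ := 100 * (1 + K) ^ 3

end jets

/-- Smooth bounded potentials with two derivatives and cubic remainder. -/
structure Sm (f f1 f2 : ℝ → ℝ) (K : ℝ) : Prop where
  meas : Measurable f
  bd : ∀ x, |f x| ≤ K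
  jet : DJet f 1 f1 f2 K

/-! ## Gaussian measures -/

/-- Centered real Gaussian with variance `v` (Dirac mass for `v ≤ 0`). -/
noncomputable def g1 (v : ℝ) : Measure ℝ := gaussianReal 0 v.toNNReal

/-- Centered Gaussian vector with independent coordinates of variances `s i`. -/
noncomputable def gv {ι : Type} [Fintype ι] (s : ι → ℝ) : Measure (ι → ℝ) :=
  Measure.pi fun i => g1 (s i)

/-- Gaussian noise of variance `h` along the direction `v`. -/
noncomputable def line {W : Type} [NormedAddCommGroup W] [NormedSpace ℝ W] [MeasurableSpace W]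
    (v : W) (h : ℝ) : Measure W := (g1 h).map fun t => t • v

/-- Gaussian cascade noise. -/
noncomputable def gvs {ι : Type} [Fintype ι] (s : ℕ → ι → ℝ) : ℕ → Measure (ι → ℝ) :=
  fun d => gv (s d)

/-- One dimensional Gaussian cascade noise. -/
noncomputable def g1s (v : ℕ → ℝ) : ℕ → Measure ℝ := fun d => g1 (v d)

instance (v : ℝ) : IsProbabilityMeasure (g1 v) := by unfold g1; infer_instance

instance {ι : Type} [Fintype ι] (s : ι → ℝ) : IsProbabilityMeasure (gv s) := by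
  unfold gv; infer_instance

/-! ## Gibbs cascades -/

section gibbs
variable {W : Type} [NormedAddCommGroup W] [MeasurableSpace W] {Ω : Type} [MeasurableSpace Ω]

/-- Bounded jointly measurable observables. -/
def BM2 (g : W → Ω → ℝ) : Prop := Measurable (Function.uncurry g) ∧ ∃ C, ∀ w x, |g w x| ≤ C

/-- Hamiltonians: jointly measurable with linear growth in the field. -/
def HG (H : W → Ω → ℝ) : Prop :=
  Measurable (Function.uncurry H) ∧ ∃ C, ∀ w x, |H w x| ≤ C * (1 + ‖w‖)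

/-- Log partition function. -/
noncomputable def gtop (μ : Measure Ω) (H : W → Ω → ℝ) (w : W) : ℝ := lse μ 1 (H w)

/-- Gibbs average. -/
noncomputable def gib (μ : Measure Ω) (H g : W → Ω → ℝ) (w : W) : ℝ := gexp μ 1 (H w) (g w)

/-- Conditional expectation at depth `k` of a Gibbs average. -/
noncomputable def GE (ζ : ℕ → ℝ) (ν : ℕ → Measure W) (μ : Measure Ω) (H g : W → Ω → ℝ)
    (k : ℕ) : W → ℝ := Ex ζ ν (gtop μ H) 0 (gib μ H g) k

/-- Full expectation of a Gibbs average (root level `n`, started at the origin). -/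
noncomputable def EG (ζ : ℕ → ℝ) (ν : ℕ → Measure W) (μ : Measure Ω) (H g : W → Ω → ℝ)
    (n : ℕ) : ℝ := GE ζ ν μ H g (n + 1) 0

/-- Expected square of the conditional expectation at depth `k`. -/
noncomputable def Esq (ζ : ℕ → ℝ) (ν : ℕ → Measure W) (μ : Measure Ω) (H g : W → Ω → ℝ)
    (n k : ℕ) : ℝ := Ex ζ ν (gtop μ H) k (fun w => GE ζ ν μ H g k w ^ 2) (n + 1) 0

/-- Expected overlap at depth `k` of a vector observable. -/
noncomputable def rho {β : Type} [Fintype β] (ζ : ℕ → ℝ) (ν : ℕ → Measure W) (μ : Measure Ω)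
    (H : W → Ω → ℝ) (ξ : β → W → Ω → ℝ) (n k : ℕ) : ℝ := ∑ j, Esq ζ ν μ H (ξ j) n k

/-- Decoupling of a vector observable from every bounded scalar observable. -/
def Dec {β : Type} [Fintype β] (ζ : ℕ → ℝ) (ν : ℕ → Measure W) (μ : Measure Ω)
    (H : W → Ω → ℝ) (ξ : β → W → Ω → ℝ) (n : ℕ) (Err : ℝ) : Prop :=
  ∀ (φ : W → Ω → ℝ) (L : ℝ), Measurable (Function.uncurry φ) → (∀ w x, |φ w x| ≤ L) →
    ∑ k ∈ Finset.range n, (ζ k - ζ (k + 1)) *
      |rho ζ ν μ H (fun j w x => φ w x * ξ j w x) n (k + 1)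
        - rho ζ ν μ H ξ n (k + 1) * Esq ζ ν μ H φ n (k + 1)| ≤ L ^ 2 * Err

end gibbs

/-- The quantity `a + ζ m ^ 2` of a coordinate, averaged over the step of level `d`;
a function at depth `d + 1`. -/
noncomputable def Bp {W : Type} [NormedAddCommGroup W] [MeasurableSpace W] {Ω : Type}
    [MeasurableSpace Ω] (ζ : ℕ → ℝ) (ν : ℕ → Measure W) (μ : Measure Ω) (H m a : W → Ω → ℝ)
    (d : ℕ) : W → ℝ :=
  Ex ζ ν (gtop μ H) d (bb ζ ν (gtop μ H) (gib μ H m)
    (fun w => gib μ H (fun w x => a w x + m w x ^ 2) w - gib μ H m w ^ 2) d) (d + 1)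

/-- Twice the derivative of the value in the variance of a coordinate at level `d`. -/
noncomputable def Db {W : Type} [NormedAddCommGroup W] [MeasurableSpace W] {Ω : Type}
    [MeasurableSpace Ω] (ζ : ℕ → ℝ) (ν : ℕ → Measure W) (μ : Measure Ω) (H m a : W → Ω → ℝ)
    (n d : ℕ) : ℝ :=
  EG ζ ν μ H (fun w x => a w x + m w x ^ 2) n
    - ∑ k ∈ Finset.range d, (ζ k - ζ (k + 1)) * Esq ζ ν μ H m n (k + 1)

/-- Partial sums `∑_{k<d} (ζ k - ζ (k+1)) c (k+1)`. -/
noncomputable def QQ (ζ c : ℕ → ℝ) (d : ℕ) : ℝ :=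
  ∑ k ∈ Finset.range d, (ζ k - ζ (k + 1)) * c (k + 1)

/-- Level increments of a cumulative path. -/
def dq (c : ℕ → ℝ) (d : ℕ) : ℝ := c d - c (d + 1)

/-- Cumulative path of level variances. -/
noncomputable def cum (n : ℕ) (v : ℕ → ℝ) (k : ℕ) : ℝ := ∑ d ∈ Finset.Ico k (n + 1), v d

/-- Squared field strengths, no field at the top level. -/
def sq0 (θ : ℕ → ℝ) (d : ℕ) : ℝ := if d = 0 then 0 else θ d ^ 2

/-- Shrinking an overlap path. -/
noncomputable def shr (η : ℝ) (q : ℕ → ℝ) (k : ℕ) : ℝ := if k = 0 then 1 else q k / (1 + η)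

/-- One sided second difference bounds in each field strength. -/
def SD (U : (ℕ → ℝ) → ℝ) (θ τ : ℕ → ℝ) (y κ : ℝ) (n : ℕ) : Prop :=
  ∀ d, 1 ≤ d → d ≤ n →
    U (Function.update θ d (θ d + y)) - U θ ≤ y * τ d + κ ∧
    U (Function.update θ d (θ d - y)) - U θ ≤ -(y * τ d) + κ

/-- Coordinate jets of a Hamiltonian on `ι → ℝ`. -/
structure HJ {ι : Type} [Fintype ι] [DecidableEq ι] {Ω : Type} [MeasurableSpace Ω]
    (H : (ι → ℝ) → Ω → ℝ) (h1 h2 : ι → (ι → ℝ) → Ω → ℝ) : Prop where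
  hg : HG H
  jet : ∃ K, ∀ i, FJet H (Pi.single i 1) (h1 i) (h2 i) K

/-- The vector with entries `c j` on the block `e` and zero elsewhere. -/
def blk {ι β : Type} [DecidableEq ι] [Fintype β] (e : β ↪ ι) (c : β → ℝ) : ι → ℝ :=
  fun i => ∑ j, if e j = i then c j else 0

/-- Hypotheses on a block of coordinates. -/
structure Blk {ι β : Type} [Fintype ι] [DecidableEq ι] [Fintype β] {Ω : Type} [MeasurableSpace Ω]
    (H : (ι → ℝ) → Ω → ℝ) (h1 : ι → (ι → ℝ) → Ω → ℝ) (e : β ↪ ι) (K b Λ : ℝ) : Prop where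
  K0 : 0 ≤ K
  dir : ∀ c : β → ℝ, ∃ a K', FJet H (blk e c) (fun w x => ∑ j, c j * h1 (e j) w x) a K' ∧
    ∀ w x, -(K * ∑ j, c j ^ 2) ≤ a w x
  sc : ∀ (c : β → ℝ) w x,
    H w x + ∑ j, c j * h1 (e j) w x - K / 2 * ∑ j, c j ^ 2 ≤ H (w + blk e c) x
  osc : K = 0 ∨ ∀ j w (t : ℝ) x, |H (w + t • Pi.single (e j) 1) x - H w x| ≤ b
  lam : ∀ w x, ∑ j, h1 (e j) w x ^ 2 ≤ Λ

/-- A family of variance profiles whose block variances are `θ d ^ 2` on levels `d ≠ 0`. -/
structure Fam {ι β : Type} (e : β ↪ ι) (s : (ℕ → ℝ) → ℕ → ι → ℝ) : Prop where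
  nn : ∀ θ d i, 0 ≤ s θ d i
  blockv : ∀ θ d j, d ≠ 0 → s θ d (e j) = θ d ^ 2
  off : ∀ θ θ' d i, (d = 0 ∨ ∀ j, e j ≠ i) → s θ d i = s θ' d i

/-! ## The universal perceptron system -/

/-- Configurations of squared norm `card S`. -/
def Sph (S : Type) [Fintype S] : Type := {x : S → ℝ // ∑ i, x i ^ 2 = Fintype.card S}

instance (S : Type) [Fintype S] : MeasurableSpace (Sph S) :=
  inferInstanceAs (MeasurableSpace {x : S → ℝ // ∑ i, x i ^ 2 = Fintype.card S})

/-- Coordinates: pattern entries, spin fields, pattern argument fields. -/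
abbrev Co (A S : Type) : Type := (A × S) ⊕ (S ⊕ A)

section univ
variable {A S : Type} [Fintype A] [Fintype S]

/-- Argument of pattern `a`. -/
def arg (w : Co A S → ℝ) (x : S → ℝ) (a : A) : ℝ :=
  ∑ i, w (.inl (a, i)) * x i + w (.inr (.inr a))

/-- The Hamiltonian. -/
def uH (f : A → ℝ → ℝ) (w : Co A S → ℝ) (x : Sph S) : ℝ :=
  ∑ a, f a (arg w x.1 a) + ∑ i, w (.inr (.inl i)) * x.1 i

/-- First coordinate derivatives. -/
def u1 (f1 : A → ℝ → ℝ) : Co A S → (Co A S → ℝ) → Sph S → ℝ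
  | .inl (a, i) => fun w x => f1 a (arg w x.1 a) * x.1 i
  | .inr (.inl i) => fun _ x => x.1 i
  | .inr (.inr a) => fun w x => f1 a (arg w x.1 a)

/-- Second coordinate derivatives. -/
def u2 (f2 : A → ℝ → ℝ) : Co A S → (Co A S → ℝ) → Sph S → ℝ
  | .inl (a, i) => fun w x => f2 a (arg w x.1 a) * x.1 i ^ 2
  | .inr (.inl _) => fun _ _ => 0
  | .inr (.inr a) => fun w x => f2 a (arg w x.1 a)

/-- Variance profile: pattern entries at the root level `n`, fields at every level. -/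
def prof (n : ℕ) (g : A → S → ℝ) (x : ℕ → S → ℝ) (y : ℕ → A → ℝ) (d : ℕ) : Co A S → ℝ
  | .inl (a, i) => if d = n then g a i else 0
  | .inr (.inl i) => x d i
  | .inr (.inr a) => y d a

/-- Value of the universal system. -/
noncomputable def Val (μ : Measure (Sph S)) (f : A → ℝ → ℝ) (ζ : ℕ → ℝ)
    (s : ℕ → Co A S → ℝ) (n : ℕ) : ℝ :=
  X ζ (gvs s) (gtop μ (uH f)) (n + 1) 0

end univ

/-- Spin field coordinates of a block of spins. -/
def embF (A : Type) {S β : Type} (e : β ↪ S) : β ↪ Co A S :=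
  ⟨fun j => .inr (.inl (e j)), fun _ _ h => e.injective (by simpa using h)⟩

/-- Pattern argument coordinates. -/
def embY (A S : Type) : A ↪ Co A S := ⟨fun a => .inr (.inr a), fun _ _ h => by simpa using h⟩

/-- Old coordinates after adding a pattern. -/
def oldA {A S : Type} : Co A S → Co (Option A) S
  | .inl (a, i) => .inl (some a, i)
  | .inr (.inl i) => .inr (.inl i)
  | .inr (.inr a) => .inr (.inr (some a))

/-- Fixed parameters of the asymptotic regime. -/
structure Reg (n : ℕ) (ζ : ℕ → ℝ) (me K A0 Θ θm : ℝ) : Prop where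
  z : ZAdm n ζ
  me0 : 0 < me
  me1 : me ≤ 1
  mesh : ∀ k, k < n → ζ k - ζ (k + 1) ≤ me ^ 2
  K0 : 0 ≤ K
  A00 : 0 ≤ A0
  Θ0 : 0 ≤ Θ
  θm0 : 0 < θm

/-- Field strengths in the allowed range. -/
def Fld (n : ℕ) (θm Θ : ℝ) (θ : ℕ → ℝ) : Prop :=
  ∀ d, 1 ≤ d → d ≤ n → θm ≤ θ d ∧ θ d ^ 2 ≤ Θ

/-- Canonical profile. -/
noncomputable def cprof (A S : Type) [Fintype S] (n : ℕ) (θ θ' : ℕ → ℝ) : ℕ → Co A S → ℝ :=
  prof n (fun _ _ => (Fintype.card S : ℝ)⁻¹) (fun d _ => sq0 θ d) (fun d _ => sq0 θ' d)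

/-- Value of the canonical system with the first `m` potentials of `F`. -/
noncomputable def VS {S : Type} [Fintype S] (μ : Measure (Sph S)) (F : ℕ → ℝ → ℝ) (m : ℕ)
    (ζ : ℕ → ℝ) (n : ℕ) (θ θ' : ℕ → ℝ) : ℝ :=
  Val μ (fun a : Fin m => F a) ζ (cprof (Fin m) S n θ θ') n

/-- Quenched free energy without perturbation. -/
noncomputable def Fr {N : ℕ} (μ : Measure (Sph (Fin N))) (f : ℝ → ℝ) (M : ℕ) : ℝ :=
  ∫ g, Real.log (∫ x, Real.exp (energy f g x.1) ∂μ) ∂(patterns M N)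

/-- Ising configuration of a Boolean vector. -/
def spin {S : Type} [Fintype S] (b : S → Bool) : Sph S :=
  ⟨fun i => if b i then 1 else -1, by
    have : ∀ i, (if b i then (1 : ℝ) else -1) ^ 2 = 1 := fun i => by split_ifs <;> norm_num
    simp [this]⟩

/-- Uniform measure on the cube. -/
noncomputable def ising (S : Type) [Fintype S] [DecidableEq S] : Measure (Sph S) :=
  (uniformOn (Set.univ : Set (S → Bool))).map spin

/-- Ising system with one more spin whose field variances are `xn`. -/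
noncomputable def VSo (S : Type) [Fintype S] [DecidableEq S] (F : ℕ → ℝ → ℝ) (m : ℕ)
    (ζ : ℕ → ℝ) (n : ℕ) (θ θ' xn : ℕ → ℝ) : ℝ :=
  Val (ising (Option S)) (fun a : Fin m => F a) ζ
    (prof n (fun _ _ => ((Fintype.card S : ℝ) + 1)⁻¹)
      (fun d i => i.elim (xn d) fun _ => sq0 θ d) (fun d _ => sq0 θ' d)) n

/-- Scaling a unit vector. -/
noncomputable def ofUnit {S : Type} [Fintype S] (u : Metric.sphere (0 : EuclideanSpace ℝ S) 1) :
    Sph S :=
  ⟨fun i => √(Fintype.card S : ℝ) * u.1 i, by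
    have h : ‖u.1‖ = 1 := by simp
    have h2 : ∑ i, u.1 i ^ 2 = 1 := by
      have := EuclideanSpace.real_norm_sq_eq u.1
      rw [h] at this; linarith
    simp only [mul_pow, ← Finset.mul_sum, h2, mul_one]
    exact Real.sq_sqrt (Nat.cast_nonneg _)⟩

/-- Uniform measure on the sphere. -/
noncomputable def sph (S : Type) [Fintype S] : Measure (Sph S) :=
  (unitSphereMeasure S).map ofUnit

/-- Relabelling of spins. -/
def reSph {S S' : Type} [Fintype S] [Fintype S'] (e : S ≃ S') (x : Sph S) : Sph S' :=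
  ⟨fun i => x.1 (e.symm i), by
    rw [Equiv.sum_comp e.symm (fun i => x.1 i ^ 2), x.2, Fintype.card_congr e]⟩

/-- Rotation of a configuration. -/
def rotSph {S : Type} [Fintype S] [DecidableEq S] (O : Matrix S S ℝ) (hO : O.transpose * O = 1)
    (x : Sph S) : Sph S :=
  ⟨O.mulVec x.1, by
    have h : dotProduct (O.mulVec x.1) (O.mulVec x.1) = dotProduct x.1 x.1 := by
      rw [Matrix.dotProduct_mulVec, Matrix.vecMul_mulVec, hO, Matrix.vecMul_one]
    have h2 := x.2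
    simp only [dotProduct, ← sq] at h
    rw [h, h2]⟩

/-- Law of the norm of a standard Gaussian vector. -/
noncomputable def chi (S : Type) [Fintype S] : Measure ℝ :=
  (gv fun _ : S => (1 : ℝ)).map fun y => √(∑ i, y i ^ 2)

/-- Law of one coordinate of the uniform measure on the sphere over `Option S`. -/
noncomputable def nuE (S : Type) [Fintype S] : Measure ℝ :=
  ((chi S).prod (g1 1)).map fun p => √(Fintype.card S + 1 : ℝ) * p.2 / √(p.1 ^ 2 + p.2 ^ 2)

/-- Clipping of the new coordinate. -/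
noncomputable def clipE (S : Type) [Fintype S] (ε : ℝ) : ℝ :=
  if ε ^ 2 ≤ Fintype.card S + 1 then ε else 0

/-- Radius factor of the slice at height `ε`. -/
noncomputable def rhoE (S : Type) [Fintype S] (ε : ℝ) : ℝ :=
  √((Fintype.card S + 1 - clipE S ε ^ 2) / Fintype.card S)

/-- The point of the larger sphere with height `ε` above the direction `x`. -/
noncomputable def slift {S : Type} [Fintype S] [Nonempty S] (x : Sph S) (ε : ℝ) :
    Sph (Option S) :=
  ⟨fun i => i.elim (clipE S ε) fun j => rhoE S ε * x.1 j, by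
    have hN : (0 : ℝ) < Fintype.card S := by exact_mod_cast Fintype.card_pos
    have hc : clipE S ε ^ 2 ≤ Fintype.card S + 1 := by
      unfold clipE; split_ifs with h
      · exact h
      · nlinarith
    have hr : rhoE S ε ^ 2 = (Fintype.card S + 1 - clipE S ε ^ 2) / Fintype.card S := by
      unfold rhoE; exact Real.sq_sqrt (div_nonneg (by linarith) hN.le)
    simp only [Fintype.sum_option, Option.elim, mul_pow, ← Finset.mul_sum, x.2, hr,
      Fintype.card_option]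
    field_simp
    push_cast
    ring⟩

/-- The bounded soft constraint. -/
noncomputable def f0 (η R : ℝ) (z : ℝ) : ℝ := R * (Real.exp (-(z ^ 2 / (2 * η * R))) - 1)

/-- Normalizer of the slab. -/
noncomputable def cN (S : Type) [Fintype S] (η R η' γ : ℝ) : ℝ :=
  ∫ ε in Set.Icc (-η') η', Real.exp (f0 η R (γ * ε)) ∂(nuE S)

/-- `log cosh`. -/
noncomputable def lc (x : ℝ) : ℝ := Real.log (Real.cosh x)

/-- Overlaps of the one dimensional cascade started from `log cosh`. -/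
noncomputable def rho1 (n : ℕ) (ζ c : ℕ → ℝ) (k : ℕ) : ℝ :=
  Ex ζ (g1s (dq c)) lc k (fun x => Ex ζ (g1s (dq c)) lc 0 Real.tanh k x ^ 2) (n + 1) 0

/-- The overlap path of the one dimensional cascade. -/
noncomputable def qt (n : ℕ) (ζ c : ℕ → ℝ) (k : ℕ) : ℝ :=
  if k = 0 then 1 else if k ≤ n then rho1 n ζ c k else 0

/-- Even and nondecreasing on the half line. -/
def EN (g : ℝ → ℝ) : Prop := (∀ x, g (-x) = g x) ∧ MonotoneOn g (Set.Ici 0)

end Vale.Agent.P157
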